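import Vale.Agent.P366GL.A

/-!
# P366GL: the local representations of the multiplier are glued
-/

set_option linter.all false

open MeasureTheory Metric Filter Topology Set
open scoped ContDiff NNReal
open Vale.Agent.P366 Vale.Agent.P366M Vale.Agent.P366K Vale.Agent.P366K2
open Vale.Agent.P366.Stmt (E)
open Vale.Agent.P366MM (sq zv repV_zv cv_zv cs)
open Vale.Agent.P366K3 (wt_pos cont_wt)

noncomputable section

namespace Vale.Agent.P366GL

variable {n : ℕ} {M : Type} [Mfe n M] {W : Type} [MeasurableSpace W] {D : Exterior n M} {ε : ℝ}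
  {π : W → M} {ν : W → Fin n → ℝ} {α β : Measure W} {U U' B : Set M} {N N' f G φ : M → ℝ}
  {X X' ξ : Fin n → M → ℝ} {z : M}

/-- smooth at `x` in all charts -/
def Sa (N : M → ℝ) (X : Fin n → M → ℝ) (x : M) : Prop := ∀ e ∈ At M, ∀ y, e.symm y = x →
  ContDiffAt ℝ ∞ (loc e N) y ∧ ∀ j, ContDiffAt ℝ ∞ (repV e X j) y

theorem repV_eq' {e : Ch n M} {y : E n} (h : ∀ i, X i (e.symm y) = X' i (e.symm y)) (i : Fin n) :
    repV e X i y = repV e X' i y := by simp only [repV, h]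

/-- the piece which is given by the local result -/
theorem pc_of (h : Lo D ε π ν α β z) :
    ∃ U N X, z ∈ U ∧ Pc D ε π ν α U N X ∧ (z ∈ Us D π β → Sa N X z) := by
  obtain ⟨e, he, hz, O, N, X, L, hO, zO, hc, hN, hX, hs⟩ := h
  obtain ⟨N', n1, n2⟩ := hN.extend_real
  choose X' x1 x2 using fun j => (hX j).extend_real
  refine ⟨e.symm '' O, zx e N', zv e X', ⟨_, zO, e.left_inv hz⟩,
    ⟨(openEmb_symm he).isOpenMap _ hO, fun e' he' => ⟨fun y hy => ?_, fun i y hy => ?_⟩,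
      fun f ξ B c1 c2 c3 c4 c5 => ?_⟩, fun hu e' he' y hy => ?_⟩
  · have k := image_sub he O hy.1
    refine (((La.of n1).comp (.c1 (tm_cd he' he k))).congr ?_).on _
    simpa only [loc_zx he] using loc_tm (zx e N') he' k
  · have k := image_sub he O hy.1
    refine ((La.sum Finset.univ fun j => (La.c1 (cd_jac_inv he' he k i j)).mul
      ((La.of (x1 j)).comp (.c1 (tm_cd he' he k)))).congr ?_).on _
    exact (ev_src he' k).mono fun w hw => by
      simpa only [repV_zv he] using repV_tm (zv e X') he' he hw i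
  · have s1 : B ⊆ e.source := fun x hx => image_sub he O (c4 hx).1
    have s2 : e.symm '' (e '' B) = B := e.toPartialEquiv.symm_image_image_of_subset_source s1
    have s3 : ∀ y, e.symm y ∈ B → y ∈ O ∩ {y | 0 < D.F (e.symm y)} := fun y hy => by
      obtain ⟨⟨w, h1, h2⟩, h3⟩ := c4 hy
      exact ⟨symm_inj he h2 ▸ h1, h3⟩
    refine (hc f ξ c1 c2 ⟨e '' B, ?_, c3.image_of_continuousOn (e.continuousOn.mono s1),
      by rwa [s2]⟩).trans ?_
    · rintro _ ⟨x, hx, rfl⟩
      exact s3 _ (by rwa [e.left_inv (s1 hx)])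
    rw [integral_dens_chart he D.g fun x hx => by simp [pa, c5 x fun k => hx (s1 k)]]
    refine integral_congr_ae (.of_forall fun y => ?_)
    by_cases hy : e.symm y ∈ B
    · have := dot_rep he ξ (zv e X') y
      simp only [repV_zv he, mul_comm (repC _ _ _ _), mul_comm (ξ _ _)] at this
      simp only [pa, loc, zx_symm he, ← this, n2 (s3 y hy), fun j => x2 j (s3 y hy)]
    · simp [pa, loc, repC, c5 _ hy]
  · have k : e'.symm y ∈ e.source := by rwa [hy]
    have k1 : tm e' e y = e z := by rw [tm, hy]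
    have k2 : O ∩ {y | 0 < D.F (e.symm y)} ∈ 𝓝 (e z) :=
      (hO.inter ((opn_pos D).preimage (cont_symm he))).mem_nhds
        ⟨zO, show 0 < D.F _ by rw [e.left_inv hz]; exact hu.1⟩
    obtain ⟨a1, a2⟩ := hs hu
    refine ⟨cda_tm le_rfl he' he k ?_, fun i => ?_⟩
    · rw [loc_zx he, k1]
      exact a1.congr_of_eventuallyEq (mem_of_superset k2 fun w hw => (n2 hw).symm)
    · refine (ContDiffAt.sum (s := Finset.univ) fun j _ => (cd_jac_inv he' he k i j).mul
        (ContDiffAt.comp (g := X' j) y ?_ (tm_cd he' he k))).congr_of_eventuallyEq ?_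
      · rw [k1]
        exact (a2 j).congr_of_eventuallyEq (mem_of_superset k2 fun w hw => (x2 j hw).symm)
      · exact (ev_src he' k).mono fun w hw => by
          simpa only [repV_zv he, Function.comp] using repV_tm (zv e X') he' he hw i

theorem pc_neg (D : Exterior n M) (ε : ℝ) (π : W → M) (ν : W → Fin n → ℝ) (α : Measure W) :
    Pc D ε π ν α {x | D.F x < 0} (fun _ => 0) fun _ _ => 0 := by
  have h0 : ∀ x, x ∉ {x | D.F x < 0} ∩ {x | 0 ≤ D.F x} := fun x (hx : D.F x < 0 ∧ 0 ≤ D.F x) =>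
    hx.1.not_ge hx.2
  refine ⟨isOpen_lt D.dom.1.cont continuous_const, fun e _ =>
    ⟨fun y hy => (h0 _ hy).elim, fun i y hy => (h0 _ hy).elim⟩,
    fun f ξ B _ _ _ c4 c5 => ?_⟩
  have h : ∀ x, x ∉ B := fun x hx => h0 x (sub_le (c4 hx))
  simp [iw, pa, fun x => c5 x (h x)]

section Mm

variable {m : ℝ} {P : Fin n → ℝ} {κ R1 R2 : ℝ} {Z : Fin n → M → ℝ} {η : Measure M} {c l : ℝ}
  (k : Mm D m P κ R1 R2 ε Z π ν α β η c l)
include k

theorem cs_nu (ξ : Fin n → M → ℝ) (w : W) : |∑ j, ξ j (π w) * ν w j| ≤ covNorm D.g ξ (π w) :=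
  cs D.met _ _ _ (k.unit w).le

theorem meas_iw (hf : Continuous f) (hξ : CC 0 ξ) : Measurable (iw ε π ν f ξ) :=
  ((cont_wt ε).measurable.comp k.mπ).mul ((hf.measurable.comp k.mπ).add (k.m1 ξ hξ))

theorem iw_le {C : ℝ} (h : ∀ x, 0 ≤ D.F x → wt ε x * |f x| ≤ C ∧ wt ε x * covNorm D.g ξ x ≤ C)
    (w : W) : |iw ε π ν f ξ w| ≤ 2 * C := by
  have h1 := h _ (k.dom w)
  have h2 := mul_le_mul_of_nonneg_left ((abs_add_le (f (π w)) _).trans
    (add_le_add_right (cs_nu k ξ w) _)) (wt_pos ε (π w)).le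
  rw [iw, abs_mul, abs_of_pos (wt_pos ε _)]
  linarith

theorem int_iw (hf : Continuous f) (hξ : CC 0 ξ) (hφ : Continuous φ) (hB : IsCompact B)
    (h0 : ∀ x ∉ B, φ x = 0) : Integrable (fun w => φ (π w) * iw ε π ν f ξ w) α := by
  have := k.fα
  obtain ⟨C, hC⟩ := hB.exists_bound_of_continuousOn (f := fun x =>
    |φ x| * (wt ε x * (|f x| + covNorm D.g ξ x)))
    (hφ.abs.mul ((cont_wt ε).mul (hf.abs.add (D.met.cont_covNorm hξ)))).continuousOn
  refine .of_bound ((hφ.measurable.comp k.mπ).mul (meas_iw k hf hξ)).aestronglyMeasurable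
    (max C 0) (.of_forall fun w => ?_)
  by_cases hw : π w ∈ B
  · refine le_max_of_le_left (le_trans ?_ ((le_abs_self _).trans (hC _ hw)))
    rw [Real.norm_eq_abs, abs_mul, iw, abs_mul, abs_of_pos (wt_pos ε _)]
    exact mul_le_mul_of_nonneg_left (mul_le_mul_of_nonneg_left ((abs_add_le _ _).trans
      (add_le_add_right (cs_nu k ξ w) _)) (wt_pos ε _).le) (abs_nonneg _)
  · simp [h0 _ hw]

/-- the pieces are glued -/
theorem pc_univ (h : ∀ x, 0 ≤ D.F x → Lo D ε π ν α β x) :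
    ∃ N X, Pc D ε π ν α univ N X ∧ ∀ z ∈ Us D π β, Sa N X z := by
  have H : ∀ z, ∃ U N X, z ∈ U ∧ Pc D ε π ν α U N X ∧ (z ∈ Us D π β → Sa N X z) := fun z => by
    rcases lt_or_ge (D.F z) 0 with h0 | h0
    · exact ⟨_, _, _, h0, pc_neg D ε π ν α, fun hu => absurd hu.1 h0.not_gt⟩
    · exact pc_of (h z h0)
  choose U N X h1 h2 h3 using H
  have u : ∀ p z, z ∈ U p → 0 ≤ D.F z → N z z = N p z ∧ ∀ i, X z i z = X p i z :=
    fun p z a b => (h2 z).uniq (h2 p) (h1 z) a b
  have o : ∀ e ∈ At M, ∀ y, e.symm ⁻¹' U (e.symm y) ∈ 𝓝 y := fun e he y =>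
    ((h2 _).opn.preimage (cont_symm he)).mem_nhds (h1 _)
  have t : ∀ e ∈ At M, ∀ y, ∀ a b : E n → ℝ, (∀ w, e.symm w ∈ U (e.symm y) → 0 ≤ D.F (e.symm w) →
      a w = b w) → (∃ K, ∃ t ∈ 𝓝[e.symm ⁻¹' (U (e.symm y) ∩ {x | 0 ≤ D.F x})] y,
        LipschitzOnWith K b t) → ∃ K, ∃ t ∈ 𝓝[e.symm ⁻¹' (univ ∩ {x | 0 ≤ D.F x})] y,
          LipschitzOnWith K a t := by
    rintro e he y a b hab ⟨K, t, ht, hK⟩
    rw [preimage_inter, nhdsWithin_inter_of_mem (mem_nhdsWithin_of_mem_nhds (o e he y))] at ht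
    rw [univ_inter]
    refine ⟨K, t ∩ (e.symm ⁻¹' U (e.symm y) ∩ e.symm ⁻¹' {x | 0 ≤ D.F x}), inter_mem ht
      (inter_mem (mem_nhdsWithin_of_mem_nhds (o e he y)) self_mem_nhdsWithin), fun v hv w hw => ?_⟩
    rw [hab v hv.2.1 hv.2.2, hab w hw.2.1 hw.2.2]
    exact hK hv.1 hw.1
  have lip : ∀ e ∈ At M, LocallyLipschitzOn (e.symm ⁻¹' (univ ∩ {x | 0 ≤ D.F x}))
      (loc e fun z => N z z) ∧ ∀ i, LocallyLipschitzOn (e.symm ⁻¹' (univ ∩ {x | 0 ≤ D.F x}))
        (repV e (fun i z => X z i z) i) := fun e he =>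
    ⟨fun y hy => t e he y _ _ (fun w a b => (u _ _ a b).1) (((h2 _).lip e he).1 ⟨h1 _, hy.2⟩),
      fun i y hy => t e he y _ _ (fun w a b => repV_eq' (u _ _ a b).2 i)
        (((h2 _).lip e he).2 i ⟨h1 _, hy.2⟩)⟩
  refine ⟨fun z => N z z, fun i z => X z i z, ⟨isOpen_univ, lip, fun f ξ B c1 c2 c3 c4 c5 => ?_⟩,
    fun z hz e he y hy => ?_⟩
  · obtain ⟨B', b1, b2, b3⟩ := exists_compact_between c3 (opn_pos D) fun x hx => (c4 hx).2
    obtain ⟨ψ, p1, -, p3, -, p5⟩ := exists_cut c3 isOpen_interior b2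
    obtain ⟨s, χ, a1, a2, -, -, a5⟩ := exists_pou c3 U fun x => (h2 x).opn.mem_nhds (h1 x)
    have d1 : ∀ p, Continuous fun x => χ p x * ψ x := fun p => (a1 p).cont.mul p1.cont
    have d2 : ∀ p, IsCompact (tsupport (χ p) ∩ B') := fun p => b1.inter_left (isClosed_tsupport _)
    have d3 : ∀ p, tsupport (χ p) ∩ B' ⊆ U p ∩ {x | 0 < D.F x} := fun p x hx =>
      ⟨a2 p hx.1, b3 hx.2⟩
    have d4 : ∀ p, ∀ x ∉ tsupport (χ p) ∩ B', χ p x * ψ x = 0 := fun p x hx => by
      by_contra k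
      exact hx ⟨subset_tsupport _ (left_ne_zero_of_mul k),
        interior_subset (p3 (subset_tsupport _ (right_ne_zero_of_mul k)))⟩
    have d5 : ∀ x ∈ B, ∑ p ∈ s, χ p x * ψ x = 1 := fun x hx => by
      rw [← Finset.sum_mul, (a5 x hx).self_of_nhds, (p5 x hx).eq_of_nhds, one_mul]
    have e1 : ∀ w, iw ε π ν f ξ w = ∑ p ∈ s, χ p (π w) * ψ (π w) * iw ε π ν f ξ w := fun w => by
      by_cases hw : π w ∈ B
      · rw [← Finset.sum_mul, d5 _ hw, one_mul]
      · simp [iw, c5 _ hw]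
    have e2 : ∀ x, pa (fun z => N z z) (fun i z => X z i z) f ξ x * dens D.g x =
        ∑ p ∈ s, χ p x * ψ x * pa (N p) (X p) f ξ x * dens D.g x := fun x => by
      by_cases hx : x ∈ B
      · rw [← one_mul (pa _ _ f ξ x), ← d5 x hx, Finset.sum_mul, Finset.sum_mul]
        refine Finset.sum_congr rfl fun p _ => ?_
        by_cases hp : x ∈ tsupport (χ p) ∩ B'
        · simp only [pa, u p x (d3 p hp).1 (sub_le (d3 p hp)).2]
        · simp only [d4 p x hp, zero_mul]
      · simp [pa, c5 _ hx]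
    rw [integral_congr_ae (.of_forall e1), integral_congr_ae (.of_forall e2),
      integral_finset_sum _ fun p _ => int_iw k c1 c2 (d1 p) (d2 p) (d4 p),
      integral_finset_sum _ fun p _ => int_cut (h2 p).opn ((h2 p).cont c1 c2) (d1 p) (d2 p) (d3 p)
        (d4 p)]
    exact Finset.sum_congr rfl fun p _ => (h2 p).mul c1 c2 (d1 p) (d2 p) (d3 p) (d4 p)
  · subst hy
    obtain ⟨a1, a2⟩ := h3 _ hz e he y rfl
    have v := (inter_mem (o e he y) (((opn_pos D).preimage (cont_symm he)).mem_nhds hz.1))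
    exact ⟨a1.congr_of_eventuallyEq (mem_of_superset v fun w hw => (u _ _ hw.1 (le_of_lt hw.2)).1),
      fun j => (a2 j).congr_of_eventuallyEq (mem_of_superset v fun w hw =>
        repV_eq' (u _ _ hw.1 (le_of_lt hw.2)).2 j)⟩

theorem Pc.cov (p : Pc D ε π ν α U N X) (hξ : CC 0 ξ) (hz : z ∈ U) (h0 : 0 ≤ D.F z) :
    |∑ j, X j z * ξ j z| ≤ N z * covNorm D.g ξ z := by
  have h1 := p.pos (D.met.cont_covNorm hξ) hξ
    (.of_forall fun w => by linarith [neg_abs_le (∑ j, ξ j (π w) * ν w j), cs_nu k ξ w]) hz h0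
  have h2 := p.pos (D.met.cont_covNorm hξ) hξ.neg (.of_forall fun w => by
    simp only [neg_mul, Finset.sum_neg_distrib]
    linarith [le_abs_self (∑ j, ξ j (π w) * ν w j), cs_nu k ξ w]) hz h0
  simp only [pa, mul_neg, Finset.sum_neg_distrib] at h1 h2
  exact abs_le.2 ⟨by linarith, by linarith⟩

omit k in
theorem Pc.nn (p : Pc D ε π ν α U N X) (hz : z ∈ U) (h0 : 0 ≤ D.F z) : 0 ≤ N z := by
  simpa [pa] using p.pos (continuous_const (y := 1)) cc0 (.of_forall fun w => by simp) hz h0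

theorem Pc.sq_le (p : Pc D ε π ν α U N X) (hz : z ∈ U) (h0 : 0 ≤ D.F z) :
    sq D.g z (fun i => X i z) ≤ N z ^ 2 := by
  obtain ⟨ξ, h1, h2⟩ := ex_cov D.met z fun i => X i z
  have h3 := (le_abs_self _).trans (p.cov k h1 hz h0)
  have h4 : ∑ j, X j z * ξ j z = sq D.g z fun i => X i z := by
    simp only [h2, P366MM.sq, Finset.mul_sum]
    exact Finset.sum_congr rfl fun i _ => Finset.sum_congr rfl fun j _ => by ring
  have h5 : covNorm D.g ξ z = √(sq D.g z fun i => X i z) := by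
    rw [covNorm, ← h4, Finset.sum_comm]
    congr 1
    refine Finset.sum_congr rfl fun j _ => ?_
    rw [← Finset.sum_mul]
    congr 1
    simp only [h2, Finset.mul_sum, ← mul_assoc]
    rw [Finset.sum_comm]
    simp only [← Finset.sum_mul, D.met.up_sy _ j, D.met.up_mul]
    simp
  have h6 : 0 ≤ sq D.g z fun i => X i z := D.met.g_nonneg z _
  rw [h4, h5] at h3
  nlinarith [Real.sq_sqrt h6, sq_nonneg (N z - √(sq D.g z fun i => X i z))]

theorem Pc.act (p : Pc D ε π ν α U N X) (hz : z ∈ U) (h0 : 0 ≤ D.F z) :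
    N z * mu D.g D.K z + ∑ j, X j z * mom D.g D.K j z = 0 := by
  have a : Continuous (mu D.g D.K) := (D.met.sm_mu D.smK).cont
  have b : CC 0 (mom D.g D.K) := (D.met.sm_mom D.smK).of_le (by simp)
  have h1 := p.pos a b (k.act.mono fun w hw => hw.ge) hz h0
  have h2 := p.pos a.neg b.neg (k.act.mono fun w hw => by
    simp only [en] at hw
    simp only [neg_mul, Finset.sum_neg_distrib, Pi.neg_apply]
    linarith) hz h0
  simp only [pa, mul_neg, Finset.sum_neg_distrib, Pi.neg_apply] at h1 h2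
  linarith

omit k in
theorem ae_pos (D : Exterior n M) :
    ∀ᵐ x ∂(volume : Measure M).restrict {x | 0 ≤ D.F x}, 0 < D.F x := by
  refine (ae_restrict_iff' (isClosed_le continuous_const D.dom.1.cont).measurableSet).2 ?_
  filter_upwards [D.dom.1.llip.ae_pd_zero 0] with x hx h0
  refine lt_of_le_of_ne h0 fun e => ?_
  obtain ⟨i, hi⟩ := D.dom.2.1 x e.symm
  exact hi (hx e.symm i)

omit k in
/-- an exhaustion of the interior -/
theorem exh (D : Exterior n M) : ∃ (K B : ℕ → Set M) (χ : ℕ → M → ℝ), (∀ i, IsCompact (K i) ∧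
    IsCompact (B i) ∧ B i ⊆ univ ∩ {x | 0 < D.F x} ∧ Continuous (χ i) ∧ (∀ x ∉ B i, χ i x = 0) ∧
      (∀ x, 0 ≤ χ i x ∧ χ i x ≤ 1) ∧ ∀ x ∈ K i, χ i x = 1) ∧
        ∀ x, 0 < D.F x → ∀ᶠ i in atTop, x ∈ K i := by
  have h : ∀ i : ℕ, IsCompact ({x : M | ‖px x‖ ≤ i} ∩ {x | 1 / ((i : ℝ) + 1) ≤ D.F x}) := fun i =>
    (isCompact_px M i).inter_right (isClosed_le continuous_const D.dom.1.cont)
  choose χ a1 a2 a3 a4 a5 using fun i : ℕ => exists_cut (h i) (opn_pos D) fun x hx =>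
    show 0 < D.F x from Nat.one_div_pos_of_nat.trans_le hx.2
  refine ⟨_, fun i => tsupport (χ i), χ, fun i => ⟨h i, a2 i, fun x hx => ⟨trivial, a3 i hx⟩,
    (a1 i).cont, fun x => image_eq_zero_of_notMem_tsupport, a4 i,
    fun x hx => (a5 i x hx).eq_of_nhds⟩, fun x hx => ?_⟩
  exact (tendsto_natCast_atTop_atTop.eventually_ge_atTop ‖px x‖).and
    (tendsto_one_div_add_atTop_nhds_zero_nat.eventually (ge_mem_nhds hx))

theorem Pc.rp (p : Pc D ε π ν α univ N X) (t : α (π ⁻¹' {x | D.F x = 0}) = 0) :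
    Rp D ε π ν α N X := by
  have := k.fα
  have mA := (isClosed_le (continuous_const (y := (0 : ℝ))) D.dom.1.cont).measurableSet
  obtain ⟨K, B, χ, a, b⟩ := exh D
  have c : ∀ {f ξ}, Continuous f → CC 0 ξ → ∀ i, ∫ w, χ i (π w) * iw ε π ν f ξ w ∂α =
      ∫ x in {x | 0 ≤ D.F x}, χ i x * pa N X f ξ x * dens D.g x := fun hf hξ i => by
    obtain ⟨-, a2, a3, a4, a5, -⟩ := a i
    rw [p.mul hf hξ a4 a2 a3 a5, setIntegral_eq_integral_of_forall_compl_eq_zero fun x hx => by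
      rw [a5 x fun h => hx (sub_le (a3 h)).2, zero_mul, zero_mul]]
  have ci : ∀ {f ξ}, Continuous f → CC 0 ξ → ∀ i, IntegrableOn
      (fun x => χ i x * pa N X f ξ x * dens D.g x) {x | 0 ≤ D.F x} := fun hf hξ i => by
    obtain ⟨-, a2, a3, a4, a5, -⟩ := a i
    exact (int_cut isOpen_univ (p.cont hf hξ) a4 a2 a3 a5).integrableOn
  have w0 : Continuous fun x : M => (wt ε x)⁻¹ := (cont_wt ε).inv₀ fun x => (wt_pos ε x).ne'
  have n0 : ∀ x, 0 ≤ D.F x → 0 ≤ pa N X (fun x => (wt ε x)⁻¹) (fun _ _ => 0) x * dens D.g x :=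
    fun x hx => mul_nonneg (p.pos w0 cc0 (.of_forall fun w => by simpa using (wt_pos ε _).le)
      trivial hx) (dens_nonneg _ _)
  have i0 : IntegrableOn (fun x => pa N X (fun x => (wt ε x)⁻¹) (fun _ _ => 0) x * dens D.g x)
      {x | 0 ≤ D.F x} := by
    have cov : AECover (volume.restrict {x | 0 ≤ D.F x}) atTop K :=
      ⟨(ae_pos D).mono b, fun i => (a i).1.measurableSet⟩
    have q : ∀ i, (fun x => χ i x * pa N X (fun x => (wt ε x)⁻¹) (fun _ _ => 0) x * dens D.g x)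
        =ᵐ[(volume.restrict {x | 0 ≤ D.F x}).restrict (K i)]
          fun x => pa N X (fun x => (wt ε x)⁻¹) (fun _ _ => 0) x * dens D.g x := fun i =>
      (ae_restrict_mem (a i).1.measurableSet).mono fun x hx => by
        simp only [(a i).2.2.2.2.2.2 x hx, one_mul]
    refine cov.integrable_of_integral_bounded_of_nonneg_ae (α.real univ)
      (fun i => (Integrable.integrableOn (ci w0 cc0 i)).congr (q i))
      ((ae_restrict_mem mA).mono n0) (.of_forall fun i => ?_)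
    rw [← integral_congr_ae (q i)]
    refine (setIntegral_le_integral (ci w0 cc0 i) ((ae_restrict_mem mA).mono fun x hx => ?_)).trans ?_
    · simp only [mul_assoc]
      exact mul_nonneg ((a i).2.2.2.2.2.1 x).1 (n0 x hx)
    · rw [← c w0 cc0]
      refine (Real.le_norm_self _).trans ((norm_integral_le_of_norm_le_const (C := 1)
        (.of_forall fun w => ?_)).trans_eq (one_mul _))
      have := (a i).2.2.2.2.2.1 (π w)
      simp only [iw, zero_mul, Finset.sum_const_zero, add_zero, mul_inv_cancel₀ (wt_pos ε _).ne',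
        mul_one, Real.norm_of_nonneg this.1, this.2]
  refine ⟨fun e he => by simpa only [univ_inter, preimage_setOf_eq] using p.lip e he, fun x => p.nn trivial,
    fun x => p.sq_le k trivial, fun x => p.act k trivial, fun f ξ hf hξ ⟨C, hC⟩ => ?_⟩
  have bd : ∀ x, 0 ≤ D.F x → ‖pa N X f ξ x * dens D.g x‖ ≤
      2 * C * (pa N X (fun x => (wt ε x)⁻¹) (fun _ _ => 0) x * dens D.g x) := fun x hx => by
    rw [Real.norm_eq_abs, abs_mul, abs_of_nonneg (dens_nonneg _ _), ← mul_assoc]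
    refine mul_le_mul_of_nonneg_right ?_ (dens_nonneg _ _)
    have h1 := p.nn trivial hx
    have h2 := (abs_add_le (N x * f x) _).trans (add_le_add_right (p.cov k hξ trivial hx) _)
    rw [abs_mul, abs_of_nonneg h1, ← mul_add] at h2
    refine h2.trans ?_
    simp only [pa, mul_zero, Finset.sum_const_zero, add_zero]
    rw [mul_left_comm, ← div_eq_mul_inv]
    refine mul_le_mul_of_nonneg_left ((le_div_iff₀ (wt_pos ε x)).2 ?_) h1
    linarith [hC x hx]
  have i1 : IntegrableOn (fun x => pa N X f ξ x * dens D.g x) {x | 0 ≤ D.F x} :=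
    (i0.const_mul (2 * C)).mono' (ContinuousOn.aestronglyMeasurable
      (((p.cont hf hξ).mono fun x hx => ⟨trivial, hx⟩).mul D.met.sm_dens.cont.continuousOn) mA)
      ((ae_restrict_mem mA).mono bd)
  have lim : ∀ x, 0 < D.F x → ∀ r : ℝ, Tendsto (fun i => χ i x * r) atTop (𝓝 r) := fun x hx r =>
    tendsto_const_nhds.congr' ((b x hx).mono fun i hi => by simp only [(a i).2.2.2.2.2.2 x hi, one_mul])
  have le : ∀ i x (r : ℝ), ‖χ i x * r‖ ≤ ‖r‖ := fun i x r => by
    have := (a i).2.2.2.2.2.1 x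
    rw [norm_mul, Real.norm_of_nonneg this.1]
    exact mul_le_of_le_one_left (norm_nonneg _) this.2
  refine ⟨i1, tendsto_nhds_unique (tendsto_integral_of_dominated_convergence
    (F := fun i w => χ i (π w) * iw ε π ν f ξ w) (fun _ => 2 * C) (fun i =>
      (((a i).2.2.2.1.measurable.comp k.mπ).mul (meas_iw k hf hξ)).aestronglyMeasurable)
    (integrable_const _) (fun i => .of_forall fun w => (le i _ _).trans (iw_le k hC w)) ?_) ?_⟩
  · filter_upwards [measure_eq_zero_iff_ae_notMem.1 t] with w hw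
    exact lim _ (lt_of_le_of_ne (k.dom w) fun e => hw e.symm) _
  · simp only [c hf hξ, mul_assoc]
    refine tendsto_integral_of_dominated_convergence _ (fun i => ?_) i1.norm
      (fun i => .of_forall fun x => le i x _) ((ae_pos D).mono fun x hx => lim x hx _)
    simpa only [mul_assoc] using (ci hf hξ i).aestronglyMeasurable

end Mm

/-- **GLUE** -/
theorem glue : GLUE := by
  intro n M _ W _ D m P κ R1 R2 ε Z π ν α β η c l _ k t h
  obtain ⟨N, X, p, s⟩ := pc_univ k h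
  exact ⟨N, X, p.rp k t.1, fun e he y hy => s _ hy e he y rfl⟩

end Vale.Agent.P366GL
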