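import Vale.Agent.P366K2.Pl
import Vale.Agent.P366K3.Cf
import Vale.Agent.P366MM.Co
import Mathlib.MeasureTheory.Integral.IntegralEqImproper

/-!
# P366GL: pieces of the functions which represent the multiplier
-/

set_option linter.all false

open MeasureTheory Metric Filter Topology Set
open scoped ContDiff NNReal
open Vale.Agent.P366 Vale.Agent.P366M Vale.Agent.P366K Vale.Agent.P366K2
open Vale.Agent.P366.Stmt (E)
open Vale.Agent.P366MM (sq zv repV_zv cv_zv cs)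
open Vale.Agent.P366K3 (wt_pos cont_wt)

noncomputable section

namespace Vale.Agent.P366GL

section La

variable {A B C : Type} [NormedAddCommGroup A] [NormedAddCommGroup B] [NormedAddCommGroup C]
  {f f' : A → B} {y : A}

/-- Lipschitz near a point -/
def La (f : A → B) (y : A) : Prop := ∃ K, ∃ t ∈ 𝓝 y, LipschitzOnWith K f t

theorem La.comp {g : B → C} (hg : La g (f y)) (hf : La f y) : La (fun z => g (f z)) y := by
  obtain ⟨K, t, ht, hK⟩ := hg
  obtain ⟨L, s, hs, hL⟩ := hf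
  exact ⟨K * L, s ∩ f ⁻¹' t, inter_mem hs ((hL.continuousOn.continuousAt hs).preimage_mem_nhds ht),
    hK.comp (hL.mono inter_subset_left) fun _ h => h.2⟩

theorem La.prod {g : A → C} (hf : La f y) (hg : La g y) : La (fun z => (f z, g z)) y := by
  obtain ⟨K, t, ht, hK⟩ := hg
  obtain ⟨L, s, hs, hL⟩ := hf
  exact ⟨_, s ∩ t, inter_mem hs ht, (hL.mono inter_subset_left).prodMk (hK.mono inter_subset_right)⟩

theorem La.congr (hf : La f y) (h : f' =ᶠ[𝓝 y] f) : La f' y := by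
  obtain ⟨L, s, hs, hL⟩ := hf
  exact ⟨L, s ∩ {z | f' z = f z}, inter_mem hs h, fun a ha b hb => by
    rw [ha.2, hb.2]; exact hL ha.1 hb.1⟩

theorem La.c1 [NormedSpace ℝ A] [NormedSpace ℝ B] (h : ContDiffAt ℝ ∞ f y) : La f y :=
  (h.of_le one_le_oo).exists_lipschitzOnWith

theorem La.of {K : ℝ≥0} (h : LipschitzWith K f) : La f y := ⟨K, univ, univ_mem, h.lipschitzOnWith⟩

theorem La.mul {a b : A → ℝ} (ha : La a y) (hb : La b y) : La (fun z => a z * b z) y :=
  La.comp (g := fun p : ℝ × ℝ => p.1 * p.2) (.c1 (contDiff_fst.mul contDiff_snd).contDiffAt)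
    (ha.prod hb)

theorem La.sum {ι : Type} (s : Finset ι) {a : ι → A → ℝ} (h : ∀ i, La (a i) y) :
    La (fun z => ∑ i ∈ s, a i z) y := by
  classical
  induction s using Finset.induction_on with
  | empty => simpa using La.of (LipschitzWith.const (0 : ℝ))
  | insert i s hi ih =>
    simp only [Finset.sum_insert hi]
    exact La.comp (g := fun p : ℝ × ℝ => p.1 + p.2) (.c1 (contDiff_fst.add contDiff_snd).contDiffAt)
      ((h i).prod ih)

theorem La.on (h : La f y) (s : Set A) : ∃ K, ∃ t ∈ 𝓝[s] y, LipschitzOnWith K f t := by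
  obtain ⟨L, t, ht, hL⟩ := h
  exact ⟨L, t, mem_nhdsWithin_of_mem_nhds ht, hL⟩

end La

variable {n : ℕ} {M : Type} [Mfe n M] {W : Type} [MeasurableSpace W] {D : Exterior n M} {ε : ℝ}
  {π : W → M} {ν : W → Fin n → ℝ} {α β : Measure W} {U U' B : Set M} {N N' f G φ : M → ℝ}
  {X X' ξ : Fin n → M → ℝ} {z : M}

/-- the pairing -/
def pa (N : M → ℝ) (X : Fin n → M → ℝ) (f : M → ℝ) (ξ : Fin n → M → ℝ) (x : M) : ℝ :=
  N x * f x + ∑ j, X j x * ξ j x

/-- the integrand on the side of the measure -/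
def iw (ε : ℝ) (π : W → M) (ν : W → Fin n → ℝ) (f : M → ℝ) (ξ : Fin n → M → ℝ) (w : W) : ℝ :=
  wt ε (π w) * (f (π w) + ∑ j, ξ j (π w) * ν w j)

theorem pa_mul (x : M) : pa N X (fun y => φ y * f y) (fun j y => φ y * ξ j y) x =
    φ x * pa N X f ξ x := by
  simp only [pa, mul_add, Finset.mul_sum, mul_left_comm]

theorem iw_mul (w : W) : iw ε π ν (fun y => φ y * f y) (fun j y => φ y * ξ j y) w =
    φ (π w) * iw ε π ν f ξ w := by
  simp only [iw, mul_add, Finset.mul_sum, mul_left_comm, mul_assoc]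

theorem cd0 (h : Continuous φ) : CD 0 φ := fun _ he => contDiff_zero.2 (cont_loc he h)

/-- The functions `N`, `X` represent the measure on `U`. -/
structure Pc (D : Exterior n M) (ε : ℝ) (π : W → M) (ν : W → Fin n → ℝ) (α : Measure W)
    (U : Set M) (N : M → ℝ) (X : Fin n → M → ℝ) : Prop where
  opn : IsOpen U
  lip : ∀ e ∈ At M, LocallyLipschitzOn (e.symm ⁻¹' (U ∩ {x | 0 ≤ D.F x})) (loc e N) ∧
    ∀ i, LocallyLipschitzOn (e.symm ⁻¹' (U ∩ {x | 0 ≤ D.F x})) (repV e X i)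
  rep : ∀ f ξ B, Continuous f → CC 0 ξ → IsCompact B → B ⊆ U ∩ {x | 0 < D.F x} →
    (∀ x ∉ B, f x = 0 ∧ ∀ j, ξ j x = 0) →
    ∫ w, iw ε π ν f ξ w ∂α = ∫ x, pa N X f ξ x * dens D.g x

theorem Pc.cont (p : Pc D ε π ν α U N X) (hf : Continuous f) (hξ : CC 0 ξ) :
    ContinuousOn (pa N X f ξ) (U ∩ {x | 0 ≤ D.F x}) := fun x hx => by
  have he := ch_mem x
  have h1 : loc (ch x) (pa N X f ξ) = fun y => loc (ch x) N y * loc (ch x) f y +
      ∑ j, repC (ch x) ξ j y * repV (ch x) X j y := funext fun y => by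
    rw [dot_rep he]; simp only [loc, pa, mul_comm]
  have h2 : ContinuousOn (loc (ch x) (pa N X f ξ)) ((ch x).symm ⁻¹' (U ∩ {x | 0 ≤ D.F x})) := by
    rw [h1]
    exact ((p.lip _ he).1.continuousOn.mul (cont_loc he hf).continuousOn).add
      (continuousOn_finset_sum _ fun j _ => (hξ _ he j).continuous.continuousOn.mul
        ((p.lip _ he).2 j).continuousOn)
  have h3 := h2 (pt x) (by rwa [mem_preimage, symm_pt])
  have h4 := (openEmb_symm he).map_nhdsWithin_preimage_eq (U ∩ {x | 0 ≤ D.F x}) (pt x)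
  rw [symm_pt] at h4
  rw [ContinuousWithinAt, ← h4, tendsto_map'_iff]
  rw [ContinuousWithinAt, loc_pt] at h3
  exact h3

theorem opn_pos (D : Exterior n M) : IsOpen {x | 0 < D.F x} :=
  isOpen_lt continuous_const D.dom.1.cont

theorem sub_le : U ∩ {x | 0 < D.F x} ⊆ U ∩ {x | 0 ≤ D.F x} := fun _ hy =>
  ⟨hy.1, show 0 ≤ D.F _ from le_of_lt hy.2⟩

theorem freq (h : 0 ≤ D.F z) : ∃ᶠ x in 𝓝 z, 0 < D.F x := by
  rcases h.eq_or_lt with h | h
  · intro k
    obtain ⟨i, hi⟩ := D.dom.2.1 z h.symm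
    exact hi (pd_of_isLocalMax (k.mono fun x hx => (not_lt.1 hx).trans h.le) i)
  · exact Eventually.frequently ((opn_pos D).mem_nhds h)

theorem cont_cut (hU : IsOpen U) (hG : ContinuousOn G (U ∩ {x | 0 ≤ D.F x})) (hφ : Continuous φ)
    (hB : IsCompact B) (hBU : B ⊆ U ∩ {x | 0 < D.F x}) (h0 : ∀ x ∉ B, φ x = 0) :
    Continuous (fun x => φ x * G x * dens D.g x) ∧
      HasCompactSupport fun x => φ x * G x * dens D.g x := by
  have h1 : ∀ x ∉ B, φ x * G x * dens D.g x = 0 := fun x hx => by rw [h0 x hx, zero_mul, zero_mul]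
  refine ⟨continuous_of_tsupport fun x hx => ?_, .intro hB h1⟩
  have h2 := hBU (closure_minimal (s := Function.support fun x => φ x * G x * dens D.g x)
    (fun y hy => by_contra fun k => hy (h1 y k)) hB.isClosed hx)
  exact (hφ.continuousAt.mul (hG.continuousAt (mem_of_superset
    ((hU.inter (opn_pos D)).mem_nhds h2) sub_le))).mul
      D.met.sm_dens.cont.continuousAt

theorem int_cut (hU : IsOpen U) (hG : ContinuousOn G (U ∩ {x | 0 ≤ D.F x})) (hφ : Continuous φ)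
    (hB : IsCompact B) (hBU : B ⊆ U ∩ {x | 0 < D.F x}) (h0 : ∀ x ∉ B, φ x = 0) :
    Integrable fun x => φ x * G x * dens D.g x :=
  (cont_cut hU hG hφ hB hBU h0).1.integrable_of_hasCompactSupport (cont_cut hU hG hφ hB hBU h0).2

/-- a continuous density with nonnegative integrals is nonnegative -/
theorem nn_of (hU : IsOpen U) (hG : ContinuousOn G (U ∩ {x | 0 ≤ D.F x})) (hz : z ∈ U)
    (h0 : 0 ≤ D.F z) (H : ∀ φ B, Continuous φ → (∀ x, 0 ≤ φ x) → IsCompact B →
      B ⊆ U ∩ {x | 0 < D.F x} → (∀ x ∉ B, φ x = 0) → 0 ≤ ∫ x, φ x * G x * dens D.g x) :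
    0 ≤ G z := by
  by_contra! k
  have h1 := eventually_nhdsWithin_iff.1 ((hG z ⟨hz, h0⟩).eventually (gt_mem_nhds k))
  obtain ⟨V, h2, h3, h4⟩ := _root_.eventually_nhds_iff.1 (h1.and (hU.mem_nhds hz))
  obtain ⟨x, h5, h6⟩ := ((freq h0).and_eventually (h3.mem_nhds h4)).exists
  obtain ⟨χ, c1, c2, c3, c4, c5⟩ := exists_cut (isCompact_singleton (x := x))
    (h3.inter (opn_pos D)) (singleton_subset_iff.2 ⟨h6, h5⟩)
  have s1 : tsupport χ ⊆ U ∩ {x | 0 < D.F x} := fun y hy => ⟨(h2 y (c3 hy).1).2, (c3 hy).2⟩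
  have s2 : ∀ y ∉ tsupport χ, χ y = 0 := fun y => image_eq_zero_of_notMem_tsupport
  have s3 : ∀ y ∈ tsupport χ, G y < 0 := fun y hy =>
    (h2 y (c3 hy).1).1 (sub_le (s1 hy))
  obtain ⟨a1, a2⟩ := cont_cut hU hG c1.cont c2 s1 s2
  have a3 : χ x = 1 := (c5 x rfl).eq_of_nhds
  have := a1.neg.integral_pos_of_hasCompactSupport_nonneg_nonzero (μ := volume) (x := x) a2.neg
    (fun y => by
      by_cases hy : y ∈ tsupport χ
      · exact neg_nonneg.2 (mul_nonpos_of_nonpos_of_nonneg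
          (mul_nonpos_of_nonneg_of_nonpos (c4 y).1 (s3 y hy).le) (dens_nonneg _ _))
      · simp [s2 y hy])
    (neg_ne_zero.2 (mul_ne_zero (mul_ne_zero (by simp [a3])
      (s3 x (subset_tsupport _ (by simp [a3]))).ne) (D.met.dens_pos x).ne'))
  simp only [Pi.neg_apply, integral_neg] at this
  linarith [H χ _ c1.cont (fun y => (c4 y).1) c2 s1 s2]

theorem Pc.mul (p : Pc D ε π ν α U N X) (hf : Continuous f) (hξ : CC 0 ξ) (hφ : Continuous φ)
    (hB : IsCompact B) (hBU : B ⊆ U ∩ {x | 0 < D.F x}) (h0 : ∀ x ∉ B, φ x = 0) :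
    ∫ w, φ (π w) * iw ε π ν f ξ w ∂α = ∫ x, φ x * pa N X f ξ x * dens D.g x := by
  simpa only [pa_mul, iw_mul] using p.rep (fun y => φ y * f y) _ B (hφ.mul hf) (CC.smul (cd0 hφ) hξ) hB hBU
    fun x hx => by simp [h0 x hx]

/-- pointwise inequalities pass from the measure to the functions -/
theorem Pc.pos (p : Pc D ε π ν α U N X) (hf : Continuous f) (hξ : CC 0 ξ)
    (h : ∀ᵐ w ∂α, 0 ≤ f (π w) + ∑ j, ξ j (π w) * ν w j) (hz : z ∈ U) (h0 : 0 ≤ D.F z) :
    0 ≤ pa N X f ξ z := nn_of p.opn (p.cont hf hξ) hz h0 fun φ B c1 c2 c3 c4 c5 => by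
  rw [← p.mul hf hξ c1 c3 c4 c5]
  exact integral_nonneg_of_ae (h.mono fun w hw =>
    mul_nonneg (c2 _) (mul_nonneg (wt_pos ε _).le hw))

theorem Pc.le (p : Pc D ε π ν α U N X) (q : Pc D ε π ν α U' N' X') (hf : Continuous f)
    (hξ : CC 0 ξ) (hz : z ∈ U) (hz' : z ∈ U') (h0 : 0 ≤ D.F z) : pa N X f ξ z ≤ pa N' X' f ξ z := by
  have a := (p.cont hf hξ).mono (inter_subset_inter_left _ (inter_subset_left (t := U')))
  have b := (q.cont hf hξ).mono (inter_subset_inter_left _ (inter_subset_right (s := U)))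
  refine sub_nonneg.1 (nn_of (G := fun x => pa N' X' f ξ x - pa N X f ξ x) (p.opn.inter q.opn)
    (b.sub a) ⟨hz, hz'⟩ h0 fun φ B c1 _ c3 c4 c5 => ?_)
  simp only [mul_sub, sub_mul]
  rw [integral_sub (int_cut (p.opn.inter q.opn) b c1 c3 c4 c5)
      (int_cut (p.opn.inter q.opn) a c1 c3 c4 c5),
    ← p.mul hf hξ c1 c3 (fun x hx => ⟨(c4 hx).1.1, (c4 hx).2⟩) c5,
    ← q.mul hf hξ c1 c3 (fun x hx => ⟨(c4 hx).1.2, (c4 hx).2⟩) c5, sub_self]

theorem ex_cov {g : Fld n M} (hg : Met g) (z : M) (v : Fin n → ℝ) :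
    ∃ ξ : Fin n → M → ℝ, CC 0 ξ ∧ ∀ j, ξ j z = ∑ k, g z j k * v k := by
  have r0 : 0 < ‖pt z‖ + 1 := by positivity
  have h := cv_zv (ch_mem z) (isCompact_closedBall 0 (2 * (‖pt z‖ + 1)))
    (X' := fun i y => P366Z.cut (‖pt z‖ + 1) y * v i)
    (fun y hy i => by rw [P366Z.cut_zero r0 (not_le.1 fun k => hy (mem_closedBall_zero_iff.2 k)).le, zero_mul])
    fun i => (P366Z.sm_cut _).mul contDiff_const
  refine ⟨_, SmT.lower hg.sm (by simp) (h.of_le (by simp)), fun j => ?_⟩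
  refine Finset.sum_congr rfl fun k _ => ?_
  rw [← repV_pt (zv _ _), repV_zv (ch_mem z), P366Z.cut_one (by linarith), one_mul]

theorem cc0 : CC 0 (fun _ _ => 0 : Fin n → M → ℝ) := fun e _ i => by
  rw [show repC e (fun _ _ => 0 : Fin n → M → ℝ) i = fun _ => 0 from funext fun y => by simp [repC]]
  exact contDiff_const

/-- two pieces agree -/
theorem Pc.uniq (p : Pc D ε π ν α U N X) (q : Pc D ε π ν α U' N' X') (hz : z ∈ U) (hz' : z ∈ U')
    (h0 : 0 ≤ D.F z) : N z = N' z ∧ ∀ i, X i z = X' i z := by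
  have h := le_antisymm (p.le q (continuous_const (y := 1)) cc0 hz hz' h0)
    (q.le p continuous_const cc0 hz' hz h0)
  refine ⟨by simpa [pa] using h, ?_⟩
  obtain ⟨ξ, h1, h2⟩ := ex_cov D.met z fun i => X i z - X' i z
  have h3 := p.le q (continuous_const (y := 0)) h1 hz hz' h0
  by_contra k
  have h4 := D.met.g_pos z (ξ := fun i => X i z - X' i z) fun e => k fun i =>
    sub_eq_zero.1 (congrFun e i)
  have h5 : ∑ i, ∑ j, D.g z i j * (X i z - X' i z) * (X j z - X' j z) =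
      ∑ j, X j z * ξ j z - ∑ j, X' j z * ξ j z := by
    simp only [h2, ← Finset.sum_sub_distrib, ← sub_mul, Finset.mul_sum]
    exact Finset.sum_congr rfl fun i _ => Finset.sum_congr rfl fun j _ => by ring
  simp only [pa, mul_zero, zero_add] at h3
  linarith

end Vale.Agent.P366GL
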